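import Vale.Agent.P162.Statement

/-!
# P162: the random deck

The deck has `2 * m` cards; the positions `0, …, 2 * m - 1` are counted from the top. A deck order
is a permutation `D`, where `D p` is the card in the position `p`.
-/

open MeasureTheory ProbabilityTheory

universe u

namespace Vale.Agent.P162R

/-- `D'` comes from `D` by one Thorp shuffle with the coins `c`: the cards in the positions `i` and
`m + i` are placed in the positions `2 * i` and `2 * i + 1`, in the other order if `c i = true`. -/
def Step {m : ℕ} (c : Fin m → Bool) (D D' : Equiv.Perm (Fin (2 * m))) : Prop :=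
  ∀ i : Fin m,
    D' ⟨2 * i, by omega⟩ = D (if c i then ⟨m + i, by omega⟩ else ⟨i, by omega⟩) ∧
    D' ⟨2 * i + 1, by omega⟩ = D (if c i then ⟨i, by omega⟩ else ⟨m + i, by omega⟩)

/-- `D t` is the deck after `t` Thorp shuffles of the deck `D₀`; `coin (t, i)` is the coin `i` of
the shuffle number `t + 1`; all coins are fair and independent. -/
structure IsThorp {Ω : Type u} [MeasurableSpace Ω] (P : Measure Ω) {m : ℕ}
    (coin : ℕ × Fin m → Ω → Bool) (D₀ : Equiv.Perm (Fin (2 * m)))
    (D : ℕ → Ω → Equiv.Perm (Fin (2 * m))) : Prop where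
  meas : ∀ k, Measurable (coin k)
  indep : iIndepFun coin P
  fair : ∀ k, P {ω | coin k ω = true} = 1 / 2
  start : ∀ ω, D 0 ω = D₀
  step : ∀ t ω, Step (fun i => coin (t, i) ω) (D t ω) (D (t + 1) ω)

/-- the law of the random variable `X` with values in a finite set -/
noncomputable def law {Ω : Type u} {G : Type} [MeasurableSpace Ω] (P : Measure Ω) (X : Ω → G)
    (g : G) : ℝ :=
  P.real {ω | X ω = g}

end Vale.Agent.P162R
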