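import Vale.Agent.P162R49.Defs
import Vale.Agent.P162.H72.Cube
import Vale.Agent.P162.H72.Even
import Vale.Agent.P162.H72.Bridge

/-!
# P162: the law of the random deck
-/

open MeasureTheory ProbabilityTheory Equiv Set

universe u

namespace Vale.Agent.P162R

open Vale.Agent.P162 Vale.Agent.P162.Statement

variable {m : ℕ}

theorem step_iff (c : Fin m → Bool) (D D' : Perm (Fin (2 * m))) :
    Step c D D' ↔ IsShuffle m c (D'⁻¹ * D) := by
  refine forall_congr' fun i => ?_
  have key : ∀ (p : Fin (2 * m)) (k : ℕ) (hk : k < 2 * m),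
      (((D'⁻¹ * D) p : Fin (2 * m)) : ℕ) = k ↔ D' ⟨k, hk⟩ = D p := fun p k hk => by
    rw [Perm.mul_apply, ← Perm.eq_inv_iff_eq, Fin.ext_iff, eq_comm]
  cases c i
  · simp only [Bool.false_eq_true, if_false, add_zero]
    rw [key _ _ (by omega), key _ _ (by omega)]
  · simp only [if_true, add_zero]
    rw [key _ _ (by omega), key _ _ (by omega), and_comm]

theorem step_iff' (c : Fin m → Bool) (D D' : Perm (Fin (2 * m))) :
    Step c D D' ↔ D' = D * (shuffle m c)⁻¹ := by
  rw [step_iff, H72.isShuffle_iff, eq_inv_mul_iff_mul_eq, eq_mul_inv_iff_mul_eq]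

/-- the permutation of the positions after `t` shuffles -/
def pos (c : ℕ × Fin m → Bool) : ℕ → Perm (Fin (2 * m))
  | 0 => 1
  | t + 1 => shuffle m (fun i => c (t, i)) * pos c t

theorem pos_congr {c c' : ℕ × Fin m → Bool} {t : ℕ} (h : ∀ k, k.1 < t → c k = c' k) :
    pos c t = pos c' t := by
  induction t with
  | zero => rfl
  | succ t ih =>
    rw [pos, pos, ih fun k hk => h k (by omega), funext fun i => h (t, i) (Nat.lt_succ_self t)]

/-- extension of a finite family of coins -/
def ext (T : Finset (ℕ × Fin m)) (y : T → Bool) (k : ℕ × Fin m) : Bool :=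
  if h : k ∈ T then y ⟨k, h⟩ else false

variable {Ω : Type u} [MeasurableSpace Ω] {P : Measure Ω} {coin : ℕ × Fin m → Ω → Bool}
  {D₀ : Perm (Fin (2 * m))} {D : ℕ → Ω → Perm (Fin (2 * m))}

theorem IsThorp.pos_eq (h : IsThorp P coin D₀ D) (t : ℕ) (ω : Ω) :
    (D t ω)⁻¹ * D₀ = pos (fun k => coin k ω) t := by
  induction t with
  | zero => rw [h.start, inv_mul_cancel, pos]
  | succ t ih =>
    rw [(step_iff' _ _ _).1 (h.step t ω), mul_inv_rev, inv_inv, mul_assoc, ih, pos]

omit [MeasurableSpace Ω] in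
theorem pre_old (coin : ℕ × Fin m → Ω → Bool) (t : ℕ) (g : Perm (Fin (2 * m))) :
    {ω | pos (fun k => coin k ω) t = g} =
      (fun ω (k : (Finset.range t ×ˢ Finset.univ : Finset (ℕ × Fin m))) => coin k ω) ⁻¹'
        {y | pos (ext _ y) t = g} := by
  ext ω
  rw [mem_preimage, mem_ofPred_eq, mem_ofPred_eq, pos_congr (c' := ext _ fun
    k : (Finset.range t ×ˢ Finset.univ : Finset (ℕ × Fin m)) => coin k ω) fun k hk => ?_]
  rw [ext, dif_pos (by simpa using hk)]

omit [MeasurableSpace Ω] in
theorem pre_new (coin : ℕ × Fin m → Ω → Bool) (t : ℕ) (g : Perm (Fin (2 * m))) :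
    {ω | shuffle m (fun i => coin (t, i) ω) = g} =
      (fun ω (k : ({t} ×ˢ Finset.univ : Finset (ℕ × Fin m))) => coin k ω) ⁻¹'
        {y | shuffle m (fun i => y ⟨(t, i), by simp⟩) = g} := rfl

theorem IsThorp.meas_old (h : IsThorp P coin D₀ D) (t : ℕ) (g : Perm (Fin (2 * m))) :
    MeasurableSet {ω | pos (fun k => coin k ω) t = g} := by
  rw [pre_old]
  exact measurable_pi_lambda _ (fun k => h.meas _) MeasurableSet.of_discrete

theorem IsThorp.meas_new (h : IsThorp P coin D₀ D) (t : ℕ) (g : Perm (Fin (2 * m))) :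
    MeasurableSet {ω | shuffle m (fun i => coin (t, i) ω) = g} := by
  rw [pre_new]
  exact measurable_pi_lambda _ (fun k => h.meas _) MeasurableSet.of_discrete

theorem IsThorp.inter (h : IsThorp P coin D₀ D) (t : ℕ) (g g' : Perm (Fin (2 * m))) :
    P.real ({ω | shuffle m (fun i => coin (t, i) ω) = g} ∩ {ω | pos (fun k => coin k ω) t = g'}) =
      P.real {ω | shuffle m (fun i => coin (t, i) ω) = g} *
        P.real {ω | pos (fun k => coin k ω) t = g'} := by
  rw [pre_old, pre_new, measureReal_def, measureReal_def, measureReal_def, ← ENNReal.toReal_mul,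
    (h.indep.indepFun_finset _ _ ?_ h.meas).measure_inter_preimage_eq_mul _ _
      MeasurableSet.of_discrete MeasurableSet.of_discrete]
  rw [Finset.disjoint_left]
  intro k h1 h2
  simp only [Finset.mem_product, Finset.mem_singleton, Finset.mem_range] at h1 h2
  omega

variable [IsProbabilityMeasure P]

theorem IsThorp.half (h : IsThorp P coin D₀ D) (k : ℕ × Fin m) (b : Bool) :
    P (coin k ⁻¹' {b}) = 1 / 2 := by
  cases b
  · have e : coin k ⁻¹' {false} = {ω | coin k ω = true}ᶜ := by
      ext ω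
      simp
    rw [e, prob_compl_eq_one_sub (s := {ω | coin k ω = true})
      (h.meas k (measurableSet_singleton true)), h.fair, one_div,
      ENNReal.one_sub_inv_two]
  · exact h.fair k

theorem IsThorp.cyl (h : IsThorp P coin D₀ D) (t : ℕ) (c : Fin m → Bool) :
    P.real {ω | (fun i => coin (t, i) ω) = c} = 1 / 2 ^ m := by
  have e : {ω | (fun i => coin (t, i) ω) = c} = ⋂ i, coin (t, i) ⁻¹' {c i} := by
    ext ω
    simp [funext_iff]
  rw [e, measureReal_def, (h.indep.precomp (g := fun i => (t, i)) fun _ _ a =>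
    (Prod.ext_iff.1 a).2).meas_iInter fun i => ⟨{c i}, measurableSet_singleton _, rfl⟩]
  simp only [h.half]
  simp

/-- the law of one shuffle -/
theorem IsThorp.law_new (h : IsThorp P coin D₀ D) (t : ℕ) (g : Perm (Fin (2 * m))) :
    P.real {ω | shuffle m (fun i => coin (t, i) ω) = g} = thorpLaw m g := by
  have e : {ω | shuffle m (fun i => coin (t, i) ω) = g} =
      ⋃ c ∈ Finset.univ.filter fun c : Fin m → Bool => shuffle m c = g,
        {ω | (fun i => coin (t, i) ω) = c} := by
    ext ω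
    simp
  rw [e, measureReal_biUnion_finset (f := fun c => {ω | (fun i => coin (t, i) ω) = c})
    (fun c _ c' _ hne => disjoint_left.2 fun ω a b => hne (a.symm.trans b)) fun c _ =>
      measurable_pi_lambda (fun ω i => coin (t, i) ω) (fun i => h.meas _)
        (measurableSet_singleton c)]
  simp only [h.cyl, Finset.sum_const, nsmul_eq_mul, thorpLaw]
  ring

/-- the law after `t` shuffles -/
theorem IsThorp.law_pos (h : IsThorp P coin D₀ D) (t : ℕ) (g : Perm (Fin (2 * m))) :
    P.real {ω | pos (fun k => coin k ω) t = g} = convPow (thorpLaw m) t g := by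
  induction t generalizing g with
  | zero =>
    by_cases e : g = 1
    · simp [pos, convPow, e]
    · simp [pos, convPow, e, Ne.symm e]
  | succ t ih =>
    have e : {ω | pos (fun k => coin k ω) (t + 1) = g} = ⋃ a ∈ (Finset.univ : Finset (Perm _)),
        {ω | shuffle m (fun i => coin (t, i) ω) = a} ∩
          {ω | pos (fun k => coin k ω) t = a⁻¹ * g} := by
      ext ω
      simp [pos, eq_inv_mul_iff_mul_eq]
    rw [e, measureReal_biUnion_finset (fun c _ c' _ hne => disjoint_left.2 fun ω a b =>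
      hne (a.1.symm.trans b.1)) fun c _ => (h.meas_new t c).inter (h.meas_old t _)]
    simp only [h.inter, h.law_new, ih]
    rfl

theorem IsThorp.law_eq (h : IsThorp P coin D₀ D) (t : ℕ) :
    law P (fun ω => (D t ω)⁻¹ * D₀) = convPower (shuffleLaw m) t := by
  funext g
  rw [H72.shuffleLaw_eq, H72.convPower_eq, ← h.law_pos, law]
  simp only [h.pos_eq]

theorem IsThorp.law_step (h : IsThorp P coin D₀ D) (t : ℕ) :
    law P (fun ω => (D (t + 1) ω)⁻¹ * D t ω) = shuffleLaw m := by
  funext g
  rw [H72.shuffleLaw_eq, ← h.law_new t, law]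
  simp only [(H72.isShuffle_iff _ _ _).1 ((step_iff _ _ _).1 (h.step t _))]

omit [IsProbabilityMeasure P] in
theorem IsThorp.set_eq (h : IsThorp P coin D₀ D) (t : ℕ) (g : Perm (Fin (2 * m))) :
    {ω | D t ω = g} = {ω | pos (fun k => coin k ω) t = g⁻¹ * D₀} := by
  ext ω
  rw [mem_ofPred_eq, mem_ofPred_eq, ← h.pos_eq, mul_left_inj, inv_inj]

theorem IsThorp.dist_eq (h : IsThorp P coin D₀ D) (t : ℕ) :
    distUniform (law P (D t)) = distUniform (convPower (shuffleLaw m) t) := by
  rw [distUniform, distUniform, H72.shuffleLaw_eq, H72.convPower_eq]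
  congr 1
  refine Fintype.sum_equiv ((Equiv.inv _).trans (Equiv.mulRight D₀)) _ _ fun g => ?_
  rw [law, h.set_eq, h.law_pos]
  rfl

omit [IsProbabilityMeasure P] in
theorem IsThorp.meas_deck (h : IsThorp P coin D₀ D) (t : ℕ) (g : Perm (Fin (2 * m))) :
    MeasurableSet {ω | D t ω = g} := by
  rw [h.set_eq]
  exact h.meas_old t _

theorem IsThorp.times_eq (h : IsThorp P coin D₀ D) :
    {t | distUniform (law P (D t)) ≤ 1 / 4} = mixedTimes m := by
  simp only [h.dist_eq, mixedTimes]

theorem existsUnique_step (c : Fin m → Bool) (D : Perm (Fin (2 * m))) : ∃! D', Step c D D' := by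
  simp only [step_iff']
  exact existsUnique_eq

theorem bounds : ∃ (c C : ℝ) (C' : ℕ), 0 < c ∧ 0 < C ∧
    (∀ m : ℕ, 1 ≤ m → IsLeast (mixedTimes m) (mixTime m) ∧
      c * Real.log (2 * m : ℕ) ≤ mixTime m ∧ (mixTime m : ℝ) ≤ C * Real.log (2 * m : ℕ)) ∧
    ∀ d : ℕ, d + 1 ≤ mixTime (2 ^ d) ∧ mixTime (2 ^ d) ≤ C' * (d + 1) := by
  obtain ⟨C0, m0, h⟩ := H72.even_upper
  obtain ⟨c, C, hc, hC, h2⟩ := H72.assemble_gen C0 m0 h
  obtain ⟨r, d1, h3⟩ := H72.cube_upper
  obtain ⟨C', h4⟩ := H72.assemble_cube r d1 h3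
  refine ⟨c, C, C', hc, hC, fun m hm => ?_, fun d => ?_⟩
  · rw [H72.mixTime_eq, H72.mixedTimes_eq]
    exact h2 m hm
  · rw [H72.mixTime_eq]
    exact (h4 d).2

/-- the process exists -/
theorem exists_thorp (m : ℕ) (D₀ : Perm (Fin (2 * m))) :
    ∃ (Ω : Type) (_ : MeasurableSpace Ω) (P : Measure Ω) (_ : IsProbabilityMeasure P)
      (coin : ℕ × Fin m → Ω → Bool) (D : ℕ → Ω → Perm (Fin (2 * m))), IsThorp P coin D₀ D := by
  let μ : Measure Bool := uniformOn univ
  have : IsProbabilityMeasure μ := isProbabilityMeasure_uniformOn finite_univ univ_nonempty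
  refine ⟨ℕ × Fin m → Bool, inferInstance, Measure.infinitePi fun _ => μ, inferInstance,
    fun k ω => ω k, fun t ω => D₀ * (pos ω t)⁻¹, fun k => measurable_pi_apply k,
    iIndepFun_infinitePi (X := fun _ b => b) fun _ => measurable_id, fun k => ?_,
    fun ω => by simp [pos], fun t ω => (step_iff' _ _ _).2 (by rw [pos, mul_inv_rev, mul_assoc])⟩
  have e := Measure.map_apply (μ := Measure.infinitePi fun _ : ℕ × Fin m => μ)
    (measurable_pi_apply k) (measurableSet_singleton true)
  rw [Measure.infinitePi_map_eval] at e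
  refine e.symm.trans ?_
  rw [uniformOn_univ]
  simp

end Vale.Agent.P162R
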